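import Vale.Agent.P352.HM.Lit
import Vale.Agent.P352.NR.Q1

/-!
# P352 HM: block L
-/

set_option linter.all false

noncomputable section

open MeasureTheory Filter Topology Asymptotics Set

namespace Vale.Agent.P352.HM.H118

open GF (Ix V Fn Fld Theory IsLor bas eta o sim)
open H246 H496 H755 H15 ND NR

variable {D : Type*} [NormedAddCommGroup D] [InnerProductSpace ℂ D]

namespace L

section flow

variable {U : ℝ → D → D} {A C : D → D} {l : ℝ}

/-- transport of `C` with a factor `e^(l s)` where `C U(s) v` is locally bounded -/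
lemma e_const (h : Flow U A) (hs : ∀ v w, Inner.inner ℂ (C v) w = Inner.inner ℂ v (C w))
    (hc : ∀ v, (l : ℂ) • C v = Complex.I • (C (A v) - A (C v))) (v : D) {I : Set ℝ}
    (hI : IsOpen I) (hI' : IsPreconnected I) (hb : ∀ s ∈ I, Lbd U C v s) {t s : ℝ} (ht : t ∈ I)
    (hs' : s ∈ closure I) :
    C (U s v) = U (s - t) ((Real.exp (l * (s - t)) : ℂ) • C (U t v)) := by
  have key : ∀ s ∈ I, ∀ z, (Inner.inner ℂ z (C (U s v)) : ℂ) =
      Inner.inner ℂ z (U (s - t) ((Real.exp (l * (s - t)) : ℂ) • C (U t v))) := by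
    intro s hs1 z
    set w : D := U (-s) z with hw
    have hz : U s w = z := by rw [hw, h.add, add_neg_cancel, h.zero]
    have hz' : ∀ u : D, (Inner.inner ℂ z (U (s - t) u) : ℂ) = Inner.inner ℂ (U t w) u := by
      intro u
      rw [← h.inner (s - t) (U t w) u, h.add, sub_add_cancel, hz]
    set f : ℝ → ℂ := fun r => Inner.inner ℂ (U r w) (C (U r v)) with hf
    have d1 : ∀ r ∈ I, HasDerivAt f ((l : ℂ) * f r) r := by
      intro r hr
      have := q_der (C' := fun v => (l : ℂ) • C v) h hs hc v w (hb r hr)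
      refine this.congr_deriv ?_
      rw [inner_smul_right]
    have de : ∀ r : ℝ, HasDerivAt (fun r : ℝ => ((Real.exp (-(l * r)) : ℝ) : ℂ))
        (((-l * Real.exp (-(l * r)) : ℝ)) : ℂ) r := by
      intro r
      have h1 : HasDerivAt (fun r : ℝ => -(l * r)) (-l) r := by
        have h0 := ((hasDerivAt_id r).const_mul l).fun_neg
        simpa using h0
      have h2 := (h1.exp).ofReal_comp
      refine h2.congr_deriv ?_
      push_cast
      ring
    have g1 : ∀ r ∈ I, ((Real.exp (-(l * r)) : ℝ) : ℂ) * f r =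
        ((Real.exp (-(l * t)) : ℝ) : ℂ) * f t := by
      intro r hr
      have hd : ∀ x ∈ I, HasDerivAt (fun r : ℝ => ((Real.exp (-(l * r)) : ℝ) : ℂ) * f r) 0 x := by
        intro x hx
        refine ((de x).fun_mul (d1 x hx)).congr_deriv ?_
        push_cast
        ring
      exact hI.is_const_of_deriv_eq_zero (f := fun r : ℝ => ((Real.exp (-(l * r)) : ℝ) : ℂ) * f r)
        hI' (fun x hx => (hd x hx).differentiableAt.differentiableWithinAt)
        (fun x hx => (hd x hx).deriv) hr ht
    have g2 := g1 s hs1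
    rw [hz', inner_smul_right]
    have e1 : f s = Inner.inner ℂ z (C (U s v)) := by rw [hf]; simp only [hz]
    have e2 : (Inner.inner ℂ (U t w) (C (U t v)) : ℂ) = f t := rfl
    rw [e2, ← e1]
    have e3 : ((Real.exp (l * s) : ℝ) : ℂ) * ((Real.exp (-(l * s)) : ℝ) : ℂ) = 1 := by
      rw [← Complex.ofReal_mul, ← Real.exp_add]
      simp
    have e4 : ((Real.exp (l * (s - t)) : ℝ) : ℂ) =
        ((Real.exp (l * s) : ℝ) : ℂ) * ((Real.exp (-(l * t)) : ℝ) : ℂ) := by
      rw [← Complex.ofReal_mul, ← Real.exp_add]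
      congr 2
      ring
    rw [e4]
    linear_combination ((Real.exp (l * s) : ℝ) : ℂ) * g2 - f s * e3
  have hU : ∀ (z u : D) (r : ℝ), (Inner.inner ℂ z (U r u) : ℂ) = Inner.inner ℂ (U (-r) z) u := by
    intro z u r
    rw [← h.inner r (U (-r) z) u, h.add, add_neg_cancel, h.zero]
  have cU : ∀ (z : D), Continuous fun s : ℝ => U (-(s - t)) z := fun z =>
    (h.cont z).comp (continuous_neg.comp (continuous_id.sub continuous_const))
  refine ext_inner_left ℂ fun z => ?_
  have hcl : IsClosed {s | (Inner.inner ℂ z (C (U s v)) : ℂ) =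
      Inner.inner ℂ z (U (s - t) ((Real.exp (l * (s - t)) : ℂ) • C (U t v)))} := by
    refine isClosed_eq (q_cinner h hs v z) ?_
    simp only [hU]
    refine (cU z).inner ?_
    refine Continuous.smul ?_ continuous_const
    exact Complex.continuous_ofReal.comp (by fun_prop)
  exact closure_minimal (fun s hs => key s hs z) hcl hs'

/-- **Exponential flows.** -/
theorem int_exp (h : Flow U A) (hs : ∀ v w, Inner.inner ℂ (C v) w = Inner.inner ℂ v (C w))
    (hc : ∀ v, (l : ℂ) • C v = Complex.I • (C (A v) - A (C v))) (t : ℝ) (v : D) :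
    C (U t v) = U t ((Real.exp (l * t) : ℂ) • C v) := by
  have hall : ∀ t, Lbd U C v t := by
    by_contra hne
    push Not at hne
    set E : Set ℝ := {t | Lbd U C v t}ᶜ with hE
    have hEc : IsClosed E := (lbd_open v).isClosed_compl
    obtain ⟨e1, he1⟩ := hne
    have hEn : Nonempty E := ⟨⟨e1, he1⟩⟩
    have hEcs : CompleteSpace E := hEc.completeSpace_coe
    obtain ⟨n, ⟨x0, hx0⟩⟩ := nonempty_interior_of_iUnion_of_closed
      (f := fun n : ℕ => {x : E | ‖C (U (x : ℝ) v)‖ ≤ n})
      (fun n => (q_closed h hs v n).preimage continuous_subtype_val) (by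
        rw [eq_univ_iff_forall]
        intro x
        obtain ⟨n, hn⟩ := exists_nat_ge ‖C (U (x : ℝ) v)‖
        exact mem_iUnion.2 ⟨n, hn⟩)
    obtain ⟨V, hV, hVe⟩ := isOpen_induced_iff.1
      (isOpen_interior : IsOpen (interior {x : E | ‖C (U (x : ℝ) v)‖ ≤ n}))
    have hx0V : (x0 : ℝ) ∈ V := by
      have : x0 ∈ Subtype.val ⁻¹' V := by rw [hVe]; exact hx0
      exact this
    have hVn : ∀ x ∈ V, x ∈ E → ‖C (U x v)‖ ≤ n := by
      intro x hx hxE
      have h1 : (⟨x, hxE⟩ : E) ∈ Subtype.val ⁻¹' V := hx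
      rw [hVe] at h1
      have h2 : (⟨x, hxE⟩ : E) ∈ {x : E | ‖C (U (x : ℝ) v)‖ ≤ n} := interior_subset h1
      exact h2
    obtain ⟨ε, hε, hεV⟩ := Metric.isOpen_iff.1 hV _ hx0V
    -- the bound on the ball
    have hball : ∀ t ∈ Metric.ball (x0 : ℝ) ε, ‖C (U t v)‖ ≤ Real.exp (|l| * (2 * ε)) * n := by
      intro t ht
      have hn0 : (0 : ℝ) ≤ n := Nat.cast_nonneg n
      have hexp : 1 ≤ Real.exp (|l| * (2 * ε)) := Real.one_le_exp (by positivity)
      by_cases htE : t ∈ E
      · exact (hVn t (hεV ht) htE).trans (le_mul_of_one_le_left hn0 hexp)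
      have htL : Lbd U C v t := by
        by_contra hc
        exact htE hc
      -- the end point
      obtain ⟨b, I, hI, hI', hIb, htI, hbI, hbE, hbB⟩ : ∃ (b : ℝ) (I : Set ℝ), IsOpen I ∧
          IsPreconnected I ∧ (∀ s ∈ I, Lbd U C v s) ∧ t ∈ I ∧ b ∈ closure I ∧ b ∈ E ∧
            b ∈ Metric.ball (x0 : ℝ) ε := by
        obtain ⟨δ, hδ, hδL⟩ := Metric.isOpen_iff.1 (lbd_open (U := U) (C := C) v) t htL
        have hx0E : (x0 : ℝ) ∈ E := x0.2
        have hne : t ≠ x0 := fun h => htE (h ▸ hx0E)
        rw [Metric.mem_ball, Real.dist_eq] at ht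
        rcases lt_or_gt_of_ne hne with hlt | hgt
        · have hS : IsCompact (E ∩ Icc t x0) := isCompact_Icc.inter_left hEc
          have hSn : (E ∩ Icc t (x0 : ℝ)).Nonempty := ⟨x0, hx0E, hlt.le, le_rfl⟩
          have hb := hS.sInf_mem hSn
          set b : ℝ := sInf (E ∩ Icc t x0) with hbdef
          have htb : t < b := lt_of_le_of_ne hb.2.1 fun h => htE (h ▸ hb.1)
          refine ⟨b, Ioo (t - δ) b, isOpen_Ioo, isPreconnected_Ioo, fun s hs => ?_,
            ⟨by linarith, htb⟩, ?_, hb.1, ?_⟩
          · rcases lt_or_ge s t with h1 | h1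
            · refine hδL ?_
              rw [Metric.mem_ball, Real.dist_eq, abs_lt]
              constructor <;> linarith [hs.1]
            · by_contra hc
              have h2 : b ≤ s := csInf_le hS.bddBelow ⟨hc, h1, (hs.2.trans_le hb.2.2).le⟩
              exact absurd hs.2 (not_lt.2 h2)
          · rw [closure_Ioo (by linarith)]
            exact ⟨by linarith, le_rfl⟩
          · rw [Metric.mem_ball, Real.dist_eq, abs_lt]
            have h3 := (abs_lt.1 ht).1
            constructor <;> linarith [hb.2.2]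
        · have hS : IsCompact (E ∩ Icc (x0 : ℝ) t) := isCompact_Icc.inter_left hEc
          have hSn : (E ∩ Icc (x0 : ℝ) t).Nonempty := ⟨x0, hx0E, le_rfl, hgt.le⟩
          have hb := hS.sSup_mem hSn
          set b : ℝ := sSup (E ∩ Icc (x0 : ℝ) t) with hbdef
          have htb : b < t := lt_of_le_of_ne hb.2.2 fun h => htE (h ▸ hb.1)
          refine ⟨b, Ioo b (t + δ), isOpen_Ioo, isPreconnected_Ioo, fun s hs => ?_,
            ⟨htb, by linarith⟩, ?_, hb.1, ?_⟩
          · rcases lt_or_ge t s with h1 | h1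
            · refine hδL ?_
              rw [Metric.mem_ball, Real.dist_eq, abs_lt]
              constructor <;> linarith [hs.2]
            · by_contra hc
              have h2 : s ≤ b := le_csSup hS.bddAbove ⟨hc, (hb.2.1.trans_lt hs.1).le, h1⟩
              exact absurd hs.1 (not_lt.2 h2)
          · rw [closure_Ioo (by linarith)]
            exact ⟨le_rfl, by linarith⟩
          · rw [Metric.mem_ball, Real.dist_eq, abs_lt]
            have h3 := (abs_lt.1 ht).2
            constructor <;> linarith [hb.2.1]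
      have h1 := e_const h hs hc v hI hI' hIb htI hbI
      have h2 : ‖C (U b v)‖ = Real.exp (l * (b - t)) * ‖C (U t v)‖ := by
        rw [h1, h.norm, norm_smul, Complex.norm_real, Real.norm_eq_abs,
          abs_of_pos (Real.exp_pos _)]
      have h3 : ‖C (U t v)‖ = Real.exp (-(l * (b - t))) * ‖C (U b v)‖ := by
        rw [h2, ← mul_assoc, ← Real.exp_add]
        simp
      have hbt : |b - t| ≤ 2 * ε := by
        rw [Metric.mem_ball, Real.dist_eq, abs_lt] at ht hbB
        rw [abs_le]
        constructor <;> linarith [ht.1, ht.2, hbB.1, hbB.2]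
      have h4 : Real.exp (-(l * (b - t))) ≤ Real.exp (|l| * (2 * ε)) := by
        refine Real.exp_le_exp.2 ?_
        have h5 : -(l * (b - t)) ≤ |l * (b - t)| := neg_le_abs _
        rw [abs_mul] at h5
        exact h5.trans (mul_le_mul_of_nonneg_left hbt (abs_nonneg _))
      rw [h3]
      exact mul_le_mul h4 (hVn b (hεV hbB) hbE) (norm_nonneg _) (Real.exp_pos _).le
    have h3 : Lbd U C v x0 := by
      obtain ⟨N0, hN0⟩ := exists_nat_ge (Real.exp (|l| * (2 * ε)) * n)
      refine ⟨N0, ?_⟩
      filter_upwards [Metric.ball_mem_nhds (x0 : ℝ) hε] with s hs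
      exact (hball s hs).trans hN0
    exact x0.2 h3
  have h1 := e_const h hs hc v isOpen_univ isPreconnected_univ (fun s _ => hall s)
    (mem_univ (0 : ℝ)) (s := t) (by rw [closure_univ]; exact mem_univ _)
  rw [sub_zero, h.zero] at h1
  exact h1

end flow

/-- a surjective map that preserves inner products is homogeneous -/
lemma sml {T : D → D} (hT : ∀ x y, inner ℂ (T x) (T y) = inner ℂ x y) (hs : ∀ x, ∃ y, T y = x)
    (c : ℂ) (x : D) : T (c • x) = c • T x := by
  refine ext_inner_left ℂ fun z => ?_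
  obtain ⟨y, rfl⟩ := hs z
  rw [hT, inner_smul_right, inner_smul_right, hT]

/-- a surjective map that preserves inner products is additive -/
lemma dad {T : D → D} (hT : ∀ x y, inner ℂ (T x) (T y) = inner ℂ x y) (hs : ∀ x, ∃ y, T y = x)
    (x y : D) : T (x + y) = T x + T y := by
  refine ext_inner_left ℂ fun z => ?_
  obtain ⟨z, rfl⟩ := hs z
  rw [hT, inner_add_right, inner_add_right, hT, hT]

/-- a symmetric map is additive -/
lemma sad {T : D → D} (hT : ∀ x y, inner ℂ (T x) y = inner ℂ x (T y)) (x y : D) :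
    T (x - y) = T x - T y := by
  refine ext_inner_left ℂ fun z => ?_
  rw [← hT, inner_sub_right, inner_sub_right, hT, hT]

end L

/-- the flow of the modular unitaries -/
lemma L.mflow {Q : Theory D} {N : Set (D → D)} {v : ℝ → D → D} {j k : D → D}
    (h : Modl Q N v j k) : ND.Flow v k where
  zero x := by
    have h0 : v 0 (v 0 x) = v 0 x := by rw [← h.add, add_zero]
    have h1 : (inner ℂ (v 0 x - x) (v 0 x - x) : ℂ) = 0 := by
      rw [inner_sub_left, inner_sub_right, inner_sub_right]
      have e1 : (inner ℂ (v 0 x) x : ℂ) = inner ℂ x x := by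
        rw [← h.inn 0 (v 0 x) x, h0, h.inn]
      have e2 : (inner ℂ x (v 0 x) : ℂ) = inner ℂ x x := by
        rw [← h.inn 0 x (v 0 x), h0, h.inn]
      rw [h.inn, e1, e2]
      ring
    exact sub_eq_zero.1 (inner_self_eq_zero.1 h1)
  add s t x := (h.add s t x).symm
  inner t x y := h.inn t x y
  der := h.der

namespace L

/-- the generator commutes with its flow -/
lemma gen_com {U : ℝ → D → D} {A : D → D} (h : Flow U A) (t : ℝ) (x : D) :
    A (U t x) = U t (A x) := by
  have hs : ∀ x, ∃ y, U t y = x := fun x => ⟨U (-t) x, by rw [h.add, add_neg_cancel, h.zero]⟩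
  refine ext_inner_left ℂ fun z => ?_
  have d1 : HasDerivAt (fun s => (Inner.inner ℂ z (U s (U t x)) : ℂ))
      (Inner.inner ℂ z (Complex.I • A (U t x))) 0 := by
    have := (hasDerivAt_const (0 : ℝ) z).inner ℂ (h.der (U t x))
    refine this.congr_deriv ?_
    rw [inner_zero_left, add_zero]
  have d2 : HasDerivAt (fun s => (Inner.inner ℂ z (U s (U t x)) : ℂ))
      (Inner.inner ℂ z (Complex.I • U t (A x))) 0 := by
    have e : (fun s => (Inner.inner ℂ z (U s (U t x)) : ℂ)) =
        fun s => (Inner.inner ℂ (U (-t) z) (U s x) : ℂ) := by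
      funext s
      rw [← h.inner t (U (-t) z) (U s x), h.add, h.add, h.add, add_neg_cancel, h.zero, add_comm s t]
    rw [e]
    have := (hasDerivAt_const (0 : ℝ) (U (-t) z)).inner ℂ (h.der x)
    refine this.congr_deriv ?_
    rw [inner_zero_left, add_zero, inner_smul_right, inner_smul_right,
      ← h.inner t (U (-t) z) (A x), h.add, add_neg_cancel, h.zero]
  have d3 := d1.unique d2
  rw [inner_smul_right, inner_smul_right] at d3
  exact mul_left_cancel₀ Complex.I_ne_zero d3

end L

open L in
/-- **Block L.** -/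
theorem lblock (H : HStmt D) : LStmt D := by
  intro Q N M v u j j' k k' h x t
  have fv := L.mflow h.small
  have fu := L.mflow h.big
  have sk := q_symA fv
  have sk' := q_symA fu
  -- the commutator on `D`
  have hcom : ∀ x, Complex.I • (k' (k x) - k (k' x)) = ((2 * Real.pi : ℝ) : ℂ) • (k' x - k x) := by
    intro x
    refine ext_inner_left ℂ fun y => ?_
    have hl : Lbd v k' x 0 := by
      obtain ⟨C, r, hC⟩ := h.grow x
      obtain ⟨n, hn⟩ := exists_nat_ge (|C| * Real.exp (|r| * 1))
      refine ⟨n, ?_⟩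
      filter_upwards [Metric.ball_mem_nhds (0 : ℝ) one_pos] with s hs
      rw [Metric.mem_ball, Real.dist_eq, sub_zero] at hs
      refine (hC s).trans (le_trans ?_ hn)
      refine mul_le_mul (le_abs_self C) (Real.exp_le_exp.2 ?_) (Real.exp_pos _).le (abs_nonneg _)
      exact mul_le_mul (le_abs_self r) hs.le (abs_nonneg _) (abs_nonneg _)
    have d1 : HasDerivAt (fun s => (Inner.inner ℂ (v s y) (k' (v s x)) : ℂ))
        (Inner.inner ℂ (v 0 y) (Complex.I • (k' (k (v 0 x)) - k (k' (v 0 x))))) 0 :=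
      q_der (C' := fun x => Complex.I • (k' (k x) - k (k' x))) fv sk' (fun _ => rfl) x y hl
    have d2 : HasDerivAt (fun s => (Inner.inner ℂ (v s y) (k' (v s x)) : ℂ))
        (((2 * Real.pi : ℝ) : ℂ) * Inner.inner ℂ y (k' x - k x)) 0 := by
      have e : (fun s => (Inner.inner ℂ (v s y) (k' (v s x)) : ℂ)) = fun s : ℝ =>
          (Inner.inner ℂ y (k x) : ℂ) +
            ((Real.exp (2 * Real.pi * s) : ℝ) : ℂ) * Inner.inner ℂ y (k' x - k x) := by
        funext s
        have h1 := H Q N M v u j j' k k' h x y (-s)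
        rw [neg_neg] at h1
        rw [h1, inner_add_right, inner_smul_right]
        congr 4
        ring
      rw [e]
      have h1 : HasDerivAt (fun s : ℝ => 2 * Real.pi * s) (2 * Real.pi) 0 := by
        simpa using (hasDerivAt_id (0 : ℝ)).const_mul (2 * Real.pi)
      have h2 := ((h1.exp).ofReal_comp.mul_const (Inner.inner ℂ y (k' x - k x) : ℂ)).const_add
        (Inner.inner ℂ y (k x) : ℂ)
      refine h2.congr_deriv ?_
      simp
    have d3 := d1.unique d2
    rw [fv.zero, fv.zero] at d3
    rw [d3, inner_smul_right]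
  -- the flow of `k'`
  have hZs : ∀ x y, Inner.inner ℂ (k x - k' x) y = Inner.inner ℂ x (k y - k' y) := by
    intro x y
    rw [inner_sub_left, inner_sub_right, sk, sk']
  have hZ := int_exp (U := u) (A := k') (C := fun x => k x - k' x) (l := 2 * Real.pi) fu hZs
    (fun x => by
      have h1 := hcom x
      have h2 : k (k' x) - k' (k' x) - k' (k x - k' x) = -(k' (k x) - k (k' x)) := by
        rw [sad sk']
        abel
      show ((2 * Real.pi : ℝ) : ℂ) • (k x - k' x) =
        Complex.I • (k (k' x) - k' (k' x) - k' (k x - k' x))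
      rw [h2, smul_neg, h1, ← smul_neg, neg_sub])
  have hus : ∀ x, ∃ y, u t y = x := fun x =>
    ⟨u (-t) x, by rw [fu.add, add_neg_cancel, fu.zero]⟩
  have e1 : k (u (-t) x) = k' (u (-t) x) +
      u (-t) ((Real.exp (2 * Real.pi * -t) : ℂ) • (k x - k' x)) := by
    rw [← hZ (-t) x]
    abel
  rw [e1, dad (fun x y => fu.inner t x y) hus, gen_com fu, fu.add, fu.add, add_neg_cancel, fu.zero,
    fu.zero]
  congr 3
  ring_nf

end Vale.Agent.P352.HM.H118

end
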